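import Vale.Agent.P235.K5.EX.H279.PX3
import Vale.Agent.P235.K5.H500.Short3
import Vale.Agent.P235.H231.K5.ColPlug

/-!
# P235, line EX (helper279): [E4] with COLLAR and SHORT3 plugged in
-/

set_option autoImplicit false

namespace Vale.Agent.P235.K5.EX.H279

open Vale.Agent.P235.K5

/-- three roots, from [E1], [E2], [E3], [E5] -/
theorem px3_of (hT : TriKStmt) (hS : ShrStmt) (hC : CentreStmt) (hL : SLStmt) : PX3Stmt :=
  px3 hT hS hC hL Vale.Agent.P235.H231.K5.collarStmt Vale.Agent.P235.K5.H500.short3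

end Vale.Agent.P235.K5.EX.H279
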