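import Vale.Agent.P235.K5.EX.Defs

/-!
# P235, line EX, row [E5], second copy (helper279): the slack condition is preserved
-/

set_option autoImplicit false

namespace Vale.Agent.P235.K5.EX.H279

open SimpleGraph Vale.Agent.P235 Vale.Agent.P235.H134 Vale.Agent.P235.H56 Vale.Agent.P235.K5

section tripod

variable {V : Type} {e : Fin 3 → V → ℝ}

theorem tt_symm (x y : V) : TT e x y = TT e y x := by
  unfold TT
  rw [abs_sub_comm (e 0 x), abs_sub_comm (e 1 x), abs_sub_comm (e 2 x)]

theorem exists_leg (one : ∀ i j x, i ≠ j → e i x = 0 ∨ e j x = 0) (x : V) :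
    ∃ i : Fin 3, ∀ j, j ≠ i → e j x = 0 := by
  by_cases h0 : e 0 x = 0
  · by_cases h1 : e 1 x = 0
    · refine ⟨2, fun j hj => ?_⟩
      fin_cases j
      · exact h0
      · exact h1
      · exact absurd rfl hj
    · refine ⟨1, fun j hj => ?_⟩
      exact (one j 1 x hj).resolve_right h1
  · refine ⟨0, fun j hj => ?_⟩
    exact (one j 0 x hj).resolve_right h0

theorem tt_same {x y : V} {i : Fin 3} (hx : ∀ j, j ≠ i → e j x = 0)
    (hy : ∀ j, j ≠ i → e j y = 0) : TT e x y = |e i x - e i y| := by
  fin_cases i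
  · have a1 := hx 1 (by decide)
    have a2 := hx 2 (by decide)
    have b1 := hy 1 (by decide)
    have b2 := hy 2 (by decide)
    show |e 0 x - e 0 y| + |e 1 x - e 1 y| + |e 2 x - e 2 y| = |e 0 x - e 0 y|
    rw [a1, a2, b1, b2]
    simp
  · have a1 := hx 0 (by decide)
    have a2 := hx 2 (by decide)
    have b1 := hy 0 (by decide)
    have b2 := hy 2 (by decide)
    show |e 0 x - e 0 y| + |e 1 x - e 1 y| + |e 2 x - e 2 y| = |e 1 x - e 1 y|
    rw [a1, a2, b1, b2]
    simp
  · have a1 := hx 0 (by decide)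
    have a2 := hx 1 (by decide)
    have b1 := hy 0 (by decide)
    have b2 := hy 1 (by decide)
    show |e 0 x - e 0 y| + |e 1 x - e 1 y| + |e 2 x - e 2 y| = |e 2 x - e 2 y|
    rw [a1, a2, b1, b2]
    simp

theorem tt_diff (n : ∀ i x, 0 ≤ e i x) {x y : V} {i j : Fin 3} (hij : i ≠ j)
    (hx : ∀ k, k ≠ i → e k x = 0) (hy : ∀ k, k ≠ j → e k y = 0) :
    TT e x y = e i x + e j y := by
  have key : ∀ k, |e k x - e k y| = (if k = i then e i x else 0) + if k = j then e j y else 0 := by
    intro k
    by_cases h1 : k = i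
    · subst h1
      rw [hy k hij, sub_zero, abs_of_nonneg (n _ _), if_pos rfl, if_neg hij, add_zero]
    · rw [hx k h1, zero_sub, abs_neg, abs_of_nonneg (n _ _), if_neg h1, zero_add]
      by_cases h2 : k = j
      · subst h2
        rw [if_pos rfl]
      · rw [hy k h2, if_neg h2]
  unfold TT
  rw [key 0, key 1, key 2]
  fin_cases i <;> fin_cases j <;> first
    | exact absurd rfl hij
    | simp [add_comm]

/-- three points of a tripod: some Gromov product vanishes, or they are in three different legs -/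
theorem tripod (n : ∀ i x, 0 ≤ e i x) (one : ∀ i j x, i ≠ j → e i x = 0 ∨ e j x = 0)
    (x y z : V) :
    TT e x y + TT e x z - TT e y z ≤ 0 ∨ TT e x y + TT e y z - TT e x z ≤ 0 ∨
      TT e x z + TT e y z - TT e x y ≤ 0 ∨
      ∃ i j k : Fin 3, i ≠ j ∧ i ≠ k ∧ j ≠ k ∧ TT e x y = e i x + e j y ∧
        TT e x z = e i x + e k z ∧ TT e y z = e j y + e k z := by
  obtain ⟨i, hi⟩ := exists_leg one x
  obtain ⟨j, hj⟩ := exists_leg one y
  obtain ⟨k, hk⟩ := exists_leg one z
  by_cases hij : i = j
  · subst hij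
    rw [tt_same hi hj]
    by_cases hik : i = k
    · subst hik
      rw [tt_same hi hk, tt_same hj hk]
      rcases abs_cases (e i x - e i y) with ⟨a1, b1⟩ | ⟨a1, b1⟩ <;>
        rcases abs_cases (e i x - e i z) with ⟨a2, b2⟩ | ⟨a2, b2⟩ <;>
        rcases abs_cases (e i y - e i z) with ⟨a3, b3⟩ | ⟨a3, b3⟩ <;>
        rw [a1, a2, a3] <;>
        first
          | exact Or.inl (by linarith)
          | exact Or.inr (Or.inl (by linarith))
          | exact Or.inr (Or.inr (Or.inl (by linarith)))
    · rw [tt_diff n hik hi hk, tt_diff n hik hj hk]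
      rcases abs_cases (e i x - e i y) with ⟨a1, b1⟩ | ⟨a1, b1⟩ <;> rw [a1]
      · exact Or.inr (Or.inl (by linarith))
      · exact Or.inl (by linarith)
  · by_cases hik : i = k
    · subst hik
      rw [tt_same hi hk, tt_diff n hij hi hj, tt_symm y z, tt_diff n hij hk hj]
      rcases abs_cases (e i x - e i z) with ⟨a1, b1⟩ | ⟨a1, b1⟩ <;> rw [a1]
      · exact Or.inr (Or.inr (Or.inl (by linarith)))
      · exact Or.inl (by linarith)
    · by_cases hjk : j = k
      · subst hjk
        rw [tt_same hj hk, tt_diff n hij hi hj, tt_diff n hij hi hk]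
        rcases abs_cases (e j y - e j z) with ⟨a1, b1⟩ | ⟨a1, b1⟩ <;> rw [a1]
        · exact Or.inr (Or.inr (Or.inl (by linarith)))
        · exact Or.inr (Or.inl (by linarith))
      · exact Or.inr (Or.inr (Or.inr ⟨i, j, k, hij, hik, hjk, tt_diff n hij hi hj,
          tt_diff n hik hi hk, tt_diff n hjk hj hk⟩))

end tripod

theorem sr_perm {V : Type} {d : V → V → ℝ} (hd : IsMet d) {R : Fin 3 → V}
    {ρ : Fin 3 → Fin 3 → ℝ} (hρ : IsMet ρ) {i j k : Fin 3} (hij : i ≠ j) (hik : i ≠ k)
    (hjk : j ≠ k) :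
    (d (R i) (R j) - ρ i j) + (d (R j) (R k) - ρ j k) + (d (R i) (R k) - ρ i k) =
      sr d R ρ := by
  have s10 := hρ.symm 1 0
  have s20 := hρ.symm 2 0
  have s21 := hρ.symm 2 1
  have t10 := hd.symm (R 1) (R 0)
  have t20 := hd.symm (R 2) (R 0)
  have t21 := hd.symm (R 2) (R 1)
  have e0 : sr d R ρ = (d (R 0) (R 1) - ρ 0 1) + (d (R 1) (R 2) - ρ 1 2) +
    (d (R 0) (R 2) - ρ 0 2) := rfl
  have hi : i = 0 ∨ i = 1 ∨ i = 2 := by omega
  have hj : j = 0 ∨ j = 1 ∨ j = 2 := by omega
  have hk : k = 0 ∨ k = 1 ∨ k = 2 := by omega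
  rcases hi with rfl | rfl | rfl <;> rcases hj with rfl | rfl | rfl <;>
    rcases hk with rfl | rfl | rfl <;>
    first
      | exact absurd rfl hij
      | exact absurd rfl hik
      | exact absurd rfl hjk
      | linarith [e0]

theorem min_three {a b c m : ℝ} (ha : 0 ≤ a) (hb : 0 ≤ b) (hc : 0 ≤ c) (hm : 0 ≤ m)
    (h : m ≤ a + b + c) : m ≤ min a m + min b m + min c m := by
  rcases min_cases a m with ⟨e1, _⟩ | ⟨e1, _⟩ <;> rcases min_cases b m with ⟨e2, _⟩ | ⟨e2, _⟩ <;>
    rcases min_cases c m with ⟨e3, _⟩ | ⟨e3, _⟩ <;> rw [e1, e2, e3] <;> linarith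

/-- **[E5]** -/
theorem sl : SLStmt := by
  intro V G d hd R ρ hρ hle hsl e sh D hP F hF hup x y z hxy hyz hxz
  have u1 := hup x y hxy
  have u2 := hup y z hyz
  have u3 := hup x z hxz
  have t1 := hP.tt_le x y
  have t2 := hP.tt_le y z
  have t3 := hP.tt_le x z
  have p1 := hP.sh_nonneg x y
  have p2 := hP.sh_nonneg y z
  have p3 := hP.sh_nonneg x z
  have hs : slk d F x y z = (d x y - F x y) + (d y z - F y z) + (d x z - F x z) := rfl
  unfold SL
  rw [hs]
  rcases tripod hP.e_nonneg hP.one x y z with h | h | h | ⟨i, j, k, hij, hik, hjk, e1, e2, e3⟩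
  · left
    linarith
  · right; left
    linarith
  · right; right
    linarith
  · obtain ⟨q, hq⟩ := hsl
    have hsr := sr_perm hd (R := R) hρ hij hik hjk
    have l1 := hP.sh_low i j x y hij
    have l2 := hP.sh_low j k y z hjk
    have l3 := hP.sh_low i k x z hik
    have g1 := hP.e_le i x
    have g2 := hP.e_le j y
    have g3 := hP.e_le k z
    have n1 := hP.e_nonneg i x
    have n2 := hP.e_nonneg j y
    have n3 := hP.e_nonneg k z
    have w1 : 0 ≤ d (R i) (R j) - ρ i j := sub_nonneg.2 (hle i j)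
    have w2 : 0 ≤ d (R j) (R k) - ρ j k := sub_nonneg.2 (hle j k)
    have w3 : 0 ≤ d (R i) (R k) - ρ i k := sub_nonneg.2 (hle i k)
    have hqc : q = i ∨ q = j ∨ q = k := by omega
    -- the least depth
    have key : ∀ m : ℝ, 0 ≤ m → m ≤ e i x → m ≤ e j y → m ≤ e k z →
        m ≤ 4 * (sh x y + sh y z + sh x z) := by
      intro m hm m1 m2 m3
      have hmq : m ≤ 4 * sr d R ρ := by
        rcases hqc with rfl | rfl | rfl <;> linarith
      have h4 : m / 4 ≤ (d (R i) (R j) - ρ i j) + (d (R j) (R k) - ρ j k) +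
          (d (R i) (R k) - ρ i k) := by
        rw [hsr]
        linarith
      have h5 := min_three w1 w2 w3 (by linarith : 0 ≤ m / 4) h4
      have c1 : min (d (R i) (R j) - ρ i j) (m / 4) ≤ sh x y := by
        refine le_trans (min_le_min_left _ ?_) l1
        have := le_min m1 m2
        linarith
      have c2 : min (d (R j) (R k) - ρ j k) (m / 4) ≤ sh y z := by
        refine le_trans (min_le_min_left _ ?_) l2
        have := le_min m2 m3
        linarith
      have c3 : min (d (R i) (R k) - ρ i k) (m / 4) ≤ sh x z := by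
        refine le_trans (min_le_min_left _ ?_) l3
        have := le_min m1 m3
        linarith
      linarith
    rcases le_total (e i x) (e j y) with a1 | a1
    · rcases le_total (e i x) (e k z) with a2 | a2
      · left
        have := key _ n1 le_rfl a1 a2
        linarith
      · right; right
        have := key _ n3 a2 (a2.trans a1) le_rfl
        linarith
    · rcases le_total (e j y) (e k z) with a2 | a2
      · right; left
        have := key _ n2 a1 le_rfl a2
        linarith
      · right; right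
        have := key _ n3 (a2.trans a1) a2 le_rfl
        linarith

end Vale.Agent.P235.K5.EX.H279
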