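import Vale.Agent.P235.K5.EX.H279.PX3c
import Vale.Agent.P235.K5.EX.H279.SL
import Vale.Agent.P235.K5.EX.H489.TriK
import Vale.Agent.P235.K5.EX.H378.E2
import Vale.Agent.P235.K5.EX.H378.E3

/-!
# P235, line EX (helper279): `PX3Stmt` without hypotheses
-/

set_option autoImplicit false

namespace Vale.Agent.P235.K5.EX.H279

/-- three roots: every `EdgeExact` piece extends every prescribed metric with the slack condition -/
theorem px3Stmt : PX3Stmt :=
  px3_of Vale.Agent.P235.K5.EX.H489.triK Vale.Agent.P235.K5.EX.H378.shr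
    Vale.Agent.P235.K5.EX.H378.centre sl

end Vale.Agent.P235.K5.EX.H279
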