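import Vale.Agent.P235.K5.Cap

/-!
# P235, line EX, row [E4] (helper279): the bounds for `F = T / 8 + F₁ / 8 + 3 F₂ / 4`
-/

set_option autoImplicit false

namespace Vale.Agent.P235.K5.EX.H279

open SimpleGraph Vale.Agent.P235 Vale.Agent.P235.H134 Vale.Agent.P235.H56 Vale.Agent.P235.K5

/-- [E4] `T` the tripod law, `F₁` the law exact on the root triple for the shortened metric `d''`,
`F₂` the collar law: the mixture has the prescribed values on the root triple and the bounds -/
theorem bounds {V : Type} {d D d'' T F1 F2 : V → V → ℝ} (hd : IsMet d)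
    {R : Fin 3 → V} {ρ : Fin 3 → Fin 3 → ℝ} {c : ℝ} (hc : 0 < c) (hc1 : c ≤ 1)
    (hDd : ∀ x y, D x y ≤ d x y) (hDl : ∀ x y, 3 / 4 * d x y ≤ D x y)
    (hρ : ∀ i j, c / 1000000 * d (R i) (R j) ≤ ρ i j)
    (lT : IsL1 T) (eT : ∀ i j, T (R i) (R j) = ρ i j) (uT : ∀ x y, T x y ≤ D x y)
    (uS : ∀ x y, d'' x y ≤ D x y)
    (cS : ∀ x y, d'' x y = D x y ∨ ∃ i j, d'' x y = D x (R i) + ρ i j + D (R j) y)
    (l1 : IsL1 F1) (e1 : ∀ i j, F1 (R i) (R j) = ρ i j)
    (low1 : ∀ x y, c / 300 * d'' x y ≤ F1 x y) (up1 : ∀ x y, F1 x y ≤ d'' x y)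
    (l2 : IsL1 F2) (e2 : ∀ i j, F2 (R i) (R j) = ρ i j) (up2 : ∀ x y, F2 x y ≤ D x y)
    (near2 : ∀ x y, (∃ i j, D x (R i) + ρ i j + D (R j) y < 1 / 256 * D x y) →
      ∃ i j, ρ i j + D x (R i) + D (R j) y ≤ F2 x y) :
    IsL1 (fun x y => 1 / 8 * T x y + 1 / 8 * F1 x y + 3 / 4 * F2 x y) ∧
      (∀ i j, 1 / 8 * T (R i) (R j) + 1 / 8 * F1 (R i) (R j) + 3 / 4 * F2 (R i) (R j) = ρ i j) ∧
      (∀ x y, c / 1000000 * d x y ≤ 1 / 8 * T x y + 1 / 8 * F1 x y + 3 / 4 * F2 x y) ∧
      (∀ x y, 1 / 8 * T x y + 1 / 8 * F1 x y + 3 / 4 * F2 x y ≤ 1 / 8 * T x y + 7 / 8 * D x y) ∧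
      ∀ x y, 1 / 8 * T x y + 1 / 8 * F1 x y + 3 / 4 * F2 x y ≤ d x y := by
  refine ⟨?_, ?_, ?_, ?_, ?_⟩
  · exact ((lT.smul (by norm_num)).add (l1.smul (by norm_num))).add (l2.smul (by norm_num))
  · intro i j
    rw [eT, e1, e2]
    ring
  · intro x y
    have hd0 := hd.nonneg x y
    have nT := lT.nonneg x y
    have n2 := l2.nonneg x y
    by_cases hfar : 1 / 256 * D x y ≤ d'' x y
    · have h1 := low1 x y
      have h2 : c / 300 * (1 / 256 * (3 / 4 * d x y)) ≤ c / 300 * d'' x y := by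
        refine mul_le_mul_of_nonneg_left ?_ (by positivity)
        linarith [hDl x y]
      have h3 : c / 1000000 * d x y ≤ 1 / 8 * (c / 300 * (1 / 256 * (3 / 4 * d x y))) := by
        have h4 : 0 ≤ c * d x y := mul_nonneg hc.le hd0
        have h5 : c / 1000000 * d x y = 1 / 1000000 * (c * d x y) := by ring
        have h6 : 1 / 8 * (c / 300 * (1 / 256 * (3 / 4 * d x y))) =
            1 / 819200 * (c * d x y) := by ring
        rw [h5, h6]
        exact mul_le_mul_of_nonneg_right (by norm_num) h4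
      linarith
    · have hlt := not_le.1 hfar
      have hex : ∃ i j, D x (R i) + ρ i j + D (R j) y < 1 / 256 * D x y := by
        rcases cS x y with h | ⟨i, j, h⟩
        · exfalso
          rw [h] at hlt
          linarith [hDl x y]
        · exact ⟨i, j, by rw [← h]; exact hlt⟩
      obtain ⟨i, j, hij⟩ := near2 x y hex
      have s1 := hd.symm (R i) x
      have s2 := hd.symm y (R j)
      have key : ∀ F : V → V → ℝ, IsL1 F → (∀ i j, F (R i) (R j) = ρ i j) →
          (∀ x y, F x y ≤ D x y) → ρ i j - (D x (R i) + D (R j) y) ≤ F x y := by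
        intro F lF eF uF
        have t1 : F (R i) (R j) ≤ F (R i) x + F x (R j) := lF.tri _ _ _
        have t2 : F x (R j) ≤ F x y + F y (R j) := lF.tri _ _ _
        have u1 : F (R i) x ≤ D x (R i) := by
          rw [lF.symm]
          exact uF _ _
        have u2 : F y (R j) ≤ D (R j) y := by
          rw [lF.symm]
          exact uF _ _
        have e := eF i j
        linarith
      have k1 := key T lT eT uT
      have k2 := key F1 l1 e1 fun x y => (up1 x y).trans (uS x y)
      have hl := hρ i j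
      have p1 := hd.nonneg x (R i)
      have p2 := hd.nonneg (R j) y
      have m1 := hDl x (R i)
      have m2 := hDl (R j) y
      have tt : d x y ≤ d x (R i) + d (R i) (R j) + d (R j) y :=
        (hd.tri x (R j) y).trans (add_le_add_left (hd.tri x (R i) (R j)) _)
      have hcc : c / 1000000 ≤ 3 / 8 := by linarith
      have q1 : c / 1000000 * d x (R i) ≤ 3 / 8 * d x (R i) := mul_le_mul_of_nonneg_right hcc p1
      have q2 : c / 1000000 * d (R j) y ≤ 3 / 8 * d (R j) y := mul_le_mul_of_nonneg_right hcc p2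
      have q3 : c / 1000000 * d x y ≤ c / 1000000 * (d x (R i) + d (R i) (R j) + d (R j) y) :=
        mul_le_mul_of_nonneg_left tt (by positivity)
      have q4 : c / 1000000 * (d x (R i) + d (R i) (R j) + d (R j) y) =
          c / 1000000 * d x (R i) + c / 1000000 * d (R i) (R j) + c / 1000000 * d (R j) y := by
        ring
      linarith
  · intro x y
    have h1 := (up1 x y).trans (uS x y)
    have h2 := up2 x y
    linarith
  · intro x y
    have h1 := (up1 x y).trans (uS x y)
    have h2 := up2 x y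
    have h3 := uT x y
    have h4 := hDd x y
    linarith

end Vale.Agent.P235.K5.EX.H279
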