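import Vale.Agent.P235.K5.EX.Defs
import Vale.Agent.P235.K5.EX.H279.Bounds

/-!
# P235, line EX, row [E4] (helper279): three roots, from the rows [E1], [E2], [E3], [E5]
-/

set_option autoImplicit false

namespace Vale.Agent.P235.K5.EX.H279

open SimpleGraph Vale.Agent.P235 Vale.Agent.P235.H134 Vale.Agent.P235.H56 Vale.Agent.P235.K5

/-- the tripod law has the values `ρ` on the root triple -/
theorem tt_root {V : Type} {G : SimpleGraph V} {d : V → V → ℝ} {R : Fin 3 → V}
    {ρ : Fin 3 → Fin 3 → ℝ} {e : Fin 3 → V → ℝ} {sh D : V → V → ℝ} (hρ : IsMet ρ)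
    (hP : Shr G d R ρ e sh D) (i j : Fin 3) : TT e (R i) (R j) = ρ i j := by
  have a0 : ga ρ 0 = (ρ 0 1 + ρ 0 2 - ρ 1 2) / 2 := rfl
  have a1 : ga ρ 1 = (ρ 1 2 + ρ 1 0 - ρ 2 0) / 2 := rfl
  have a2 : ga ρ 2 = (ρ 2 0 + ρ 2 1 - ρ 0 1) / 2 := rfl
  have s10 := hρ.symm 1 0
  have s20 := hρ.symm 2 0
  have s21 := hρ.symm 2 1
  have n0 : 0 ≤ ga ρ 0 := by
    rw [← hP.root 0]
    exact hP.e_nonneg _ _
  have n1 : 0 ≤ ga ρ 1 := by
    rw [← hP.root 1]
    exact hP.e_nonneg _ _
  have n2 : 0 ≤ ga ρ 2 := by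
    rw [← hP.root 2]
    exact hP.e_nonneg _ _
  have r00 := hP.root 0
  have r11 := hP.root 1
  have r22 := hP.root 2
  have r01 := hP.root' 0 1 (by decide)
  have r02 := hP.root' 0 2 (by decide)
  have r10 := hP.root' 1 0 (by decide)
  have r12 := hP.root' 1 2 (by decide)
  have r20 := hP.root' 2 0 (by decide)
  have r21 := hP.root' 2 1 (by decide)
  have z00 := hρ.self 0
  have z11 := hρ.self 1
  have z22 := hρ.self 2
  have h01 : TT e (R 0) (R 1) = ρ 0 1 := by
    unfold TT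
    rw [r00, r10, r01, r11, r02, r12, sub_zero, zero_sub, sub_zero, abs_neg, abs_zero,
      abs_of_nonneg n0, abs_of_nonneg n1]
    linarith
  have h02 : TT e (R 0) (R 2) = ρ 0 2 := by
    unfold TT
    rw [r00, r20, r01, r21, r02, r22, sub_zero, sub_zero, zero_sub, abs_neg, abs_zero,
      abs_of_nonneg n0, abs_of_nonneg n2]
    linarith
  have h12 : TT e (R 1) (R 2) = ρ 1 2 := by
    unfold TT
    rw [r10, r20, r11, r21, r12, r22, sub_zero, sub_zero, zero_sub, abs_neg, abs_zero,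
      abs_of_nonneg n1, abs_of_nonneg n2]
    linarith
  have hs : ∀ x y, TT e x y = TT e y x := by
    intro x y
    unfold TT
    rw [abs_sub_comm (e 0 x), abs_sub_comm (e 1 x), abs_sub_comm (e 2 x)]
  have hz : ∀ x, TT e x x = 0 := by
    intro x
    unfold TT
    simp
  fin_cases i <;> fin_cases j
  · exact (hz _).trans z00.symm
  · exact h01
  · exact h02
  · exact (hs _ _).trans (h01.trans s10.symm)
  · exact (hz _).trans z11.symm
  · exact h12
  · exact (hs _ _).trans (h02.trans s20.symm)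
  · exact (hs _ _).trans (h12.trans s21.symm)
  · exact (hz _).trans z22.symm

/-- **[E4]** -/
theorem px3 (hT : TriKStmt) (hS : ShrStmt) (hC : CentreStmt) (hL : SLStmt) (hCol : CollarStmt)
    (hSh : Short3Stmt) : PX3Stmt := by
  intro V _ G c hc hc1 hE d hd hG R hR ρ hρ hlow hup hsl
  have hinj : Function.Injective R := by
    intro i j hij
    by_contra hne
    exact (hR i j hne).ne hij
  obtain ⟨e, sh, D, hP⟩ := hS V G d hd hG R hR ρ hρ hup
  have eT : ∀ i j, TT e (R i) (R j) = ρ i j := tt_root hρ hP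
  have hρD : ∀ i j, ρ i j ≤ D (R i) (R j) := fun i j =>
    (eT i j).symm.le.trans (hP.tt_D _ _)
  have lT : IsL1 (TT e) := ((isL1_line (e 0)).add (isL1_line (e 1))).add (isL1_line (e 2))
  obtain ⟨d'', md, gd, hρ', hle, hcase⟩ := hSh V G D hP.met hP.gen R hR ρ hρ hρD
  obtain ⟨F1, l1, e1, low1, up1⟩ := hT V G c 100 hc (by norm_num) hE d'' md gd R hR
    (hC V G d hd R ρ hρ hup hsl e sh D hP d'' md hρ' hle hcase)
  obtain ⟨F2, l2, e2, up2, near2⟩ := hCol V D hP.met R hinj ρ hρ hρD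
  obtain ⟨b1, b2, b3, b4, b5⟩ := bounds hd hc hc1 hP.le_d hP.low
    (fun i j => by
      have := hlow i j
      norm_num at this ⊢
      exact this)
    lT eT hP.tt_D hle hcase l1 (fun i j => (e1 i j).trans (hρ' i j))
    (fun x y => by
      have := low1 x y
      norm_num at this ⊢
      exact this) up1 l2 e2 up2 near2
  refine ⟨_, b1, b2, fun x y => ?_, b5, ?_⟩
  · have := b3 x y
    norm_num at this ⊢
    exact this
  · refine hL V G d hd R ρ hρ hup hsl e sh D hP _ (fun x y => b1.symm x y) fun x y hxy => ?_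
    have h1 := b4 x y
    have h2 := hP.le_edge x y hxy
    show 1 / 8 * TT e x y + 1 / 8 * F1 x y + 3 / 4 * F2 x y ≤ _
    linarith

end Vale.Agent.P235.K5.EX.H279
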